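import Vale.Agent.P181.DU.H235.Ops

set_option autoImplicit false

/-!
# P181, DU: the commutator of `D0` and `Fo`
-/

open MvPolynomial Finset

namespace Vale.Agent.P181.DU.H235

variable {m b : ℕ}

/-! ### column degrees -/

theorem nj_add (v w : Fin m × Fin b →₀ ℕ) (j : Fin b) : nj (v + w) j = nj v j + nj w j := by
  simp only [nj, Finsupp.add_apply, Finset.sum_add_distrib]

theorem nj_single (i : Fin m) (j j' : Fin b) :
    nj (Finsupp.single (i, j) 1) j' = if j = j' then 1 else 0 := by
  unfold nj
  split_ifs with h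
  · subst h
    rw [Finset.sum_eq_single i]
    · simp
    · intro k _ hk
      rw [Finsupp.single_apply, if_neg]
      intro h
      exact hk (Prod.ext_iff.1 h).1.symm
    · intro h
      exact absurd (Finset.mem_univ i) h
  · refine Finset.sum_eq_zero fun k _ => ?_
    rw [Finsupp.single_apply, if_neg]
    intro h'
    exact h (Prod.ext_iff.1 h').2

theorem sub_add_single {v : Fin m × Fin b →₀ ℕ} {x : Fin m × Fin b} (h : 1 ≤ v x) :
    v - Finsupp.single x 1 + Finsupp.single x 1 = v :=
  tsub_add_cancel_of_le (Finsupp.single_le_iff.2 h)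

theorem add_single_sub (v : Fin m × Fin b →₀ ℕ) (x : Fin m × Fin b) :
    v + Finsupp.single x 1 - Finsupp.single x 1 = v :=
  add_tsub_cancel_right _ _

theorem nj_sub {v : Fin m × Fin b →₀ ℕ} {i : Fin m} {j j' : Fin b} (h : 1 ≤ v (i, j)) :
    nj (v - Finsupp.single (i, j) 1) j' + (if j = j' then 1 else 0) = nj v j' := by
  rw [← nj_single i j j', ← nj_add, sub_add_single h]

/-! ### the commutator -/

theorem Cr_mono (s : ℕ) (i : Fin m) (j : Fin b) (v : Fin m × Fin b →₀ ℕ) (c : ℂ) :
    Cr s i j (monomial v c) = monomial (v + Finsupp.single (i, j) 1)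
      (c * ((s - nj v j : ℕ) : ℂ)) := by
  simp only [Cr, op_mono, smul_monomial, smul_eq_mul]

theorem An_mono (s : ℕ) (i : Fin m) (j : Fin b) (v : Fin m × Fin b →₀ ℕ) (c : ℂ) :
    An s i j (monomial v c) = if nj v j ≤ s then
      monomial (v - Finsupp.single (i, j) 1) (c * ((v (i, j) : ℕ) : ℂ)) else 0 := by
  simp only [An, op_mono]
  split_ifs
  · rw [smul_monomial, smul_eq_mul]
  · rw [smul_zero]

theorem Ad_mono (s : ℕ) (j : Fin b) (v : Fin m × Fin b →₀ ℕ) (c : ℂ) :
    Ad s j (monomial v c : R m b) = monomial v (c * ((s - nj v j : ℕ) : ℂ)) := by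
  simp only [Ad, op_mono, smul_monomial, smul_eq_mul]

theorem Ee_mono (s : ℕ) (k i : Fin m) (j : Fin b) (v : Fin m × Fin b →₀ ℕ) (c : ℂ) :
    Ee s k i j (monomial v c) = if nj v j ≤ s then
      monomial (v - Finsupp.single (k, j) 1 + Finsupp.single (i, j) 1)
        (c * ((v (k, j) : ℕ) : ℂ)) else 0 := by
  simp only [Ee, op_mono]
  split_ifs
  · rw [smul_monomial, smul_eq_mul]
  · rw [smul_zero]

theorem sub_add_comm' {v : Fin m × Fin b →₀ ℕ} {x y : Fin m × Fin b} (h : 1 ≤ v x) :
    v + Finsupp.single y 1 - Finsupp.single x 1 = v - Finsupp.single x 1 + Finsupp.single y 1 := by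
  conv_lhs => rw [← sub_add_single h]
  rw [add_right_comm, add_tsub_cancel_right]

theorem comm_ne (s : ℕ) (i k : Fin m) {j j' : Fin b} (h : j ≠ j') (p : R m b) :
    An s k j' (Cr s i j p) = Cr s i j (An s k j' p) := by
  have : An s k j' ∘ₗ Cr s i j = Cr s i j ∘ₗ An s k j' := by
    refine ext_mono fun v => ?_
    have hne : ((i, j) : Fin m × Fin b) ≠ (k, j') := fun h' => h (Prod.ext_iff.1 h').2
    have e1 : nj (v + Finsupp.single (i, j) 1) j' = nj v j' := by
      rw [nj_add, nj_single, if_neg h, add_zero]
    have e2 : (v + Finsupp.single (i, j) 1 : Fin m × Fin b →₀ ℕ) (k, j') = v (k, j') := by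
      rw [Finsupp.add_apply, Finsupp.single_apply, if_neg hne, add_zero]
    rw [LinearMap.comp_apply, LinearMap.comp_apply, Cr_mono, An_mono, An_mono, e1, e2]
    split_ifs with hs
    · rw [Cr_mono]
      rcases Nat.eq_zero_or_pos (v (k, j')) with h0 | h0
      · rw [h0]; simp
      · have e3 : nj (v - Finsupp.single (k, j') 1) j = nj v j := by
          have := nj_sub (j' := j) (show 1 ≤ v (k, j') from h0)
          rw [if_neg (Ne.symm h), add_zero] at this
          exact this
        rw [e3, sub_add_comm' (show 1 ≤ v (k, j') from h0)]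
        congr 1
        ring
    · rw [map_zero]
  exact LinearMap.congr_fun this p

theorem comm_eq (s : ℕ) (i k : Fin m) (j : Fin b) (p : R m b) :
    An s k j (Cr s i j p) + Ee s k i j p =
      Cr s i j (An s k j p) + if i = k then Ad s j p else 0 := by
  have : An s k j ∘ₗ Cr s i j + Ee s k i j =
      Cr s i j ∘ₗ An s k j + if i = k then Ad s j else 0 := by
    refine ext_mono fun v => ?_
    have e1 : nj (v + Finsupp.single (i, j) 1) j = nj v j + 1 := by
      rw [nj_add, nj_single, if_pos rfl]
    rw [LinearMap.add_apply, LinearMap.add_apply, LinearMap.comp_apply, LinearMap.comp_apply,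
      Cr_mono, An_mono, An_mono, e1, Ee_mono, one_mul, one_mul]
    have hif : (if i = k then (Ad s j : R m b →ₗ[ℂ] R m b) else 0) (monomial v 1) =
        if i = k then monomial v ((s - nj v j : ℕ) : ℂ) else 0 := by
      split_ifs
      · rw [Ad_mono, one_mul]
      · rfl
    rw [hif]
    rcases lt_or_ge s (nj v j) with hlt | hge
    · -- everything vanishes
      rw [if_neg (by omega), if_neg (by omega), if_neg (by omega)]
      rw [map_zero, Nat.sub_eq_zero_of_le hlt.le]
      simp
    · rw [if_pos hge]
      rw [if_pos hge, Cr_mono]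
      by_cases hik : i = k
      · subst hik
        rw [if_pos rfl]
        have e2 : (v + Finsupp.single (i, j) 1 : Fin m × Fin b →₀ ℕ) (i, j) = v (i, j) + 1 := by
          rw [Finsupp.add_apply, Finsupp.single_apply, if_pos rfl]
        rw [e2, add_single_sub]
        rcases Nat.eq_zero_or_pos (v (i, j)) with h0 | h0
        · rw [h0]
          rcases Nat.eq_or_lt_of_le hge with hs | hs
          · rw [if_neg (by omega), hs]; simp
          · rw [if_pos (by omega)]; simp
        · have e3 := nj_sub (j' := j) (show 1 ≤ v (i, j) from h0)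
          rw [if_pos rfl] at e3
          rw [sub_add_single (show 1 ≤ v (i, j) from h0)]
          have e4 : s - nj (v - Finsupp.single (i, j) 1) j = s - nj v j + 1 := by omega
          rw [e4]
          rcases Nat.eq_or_lt_of_le hge with hs | hs
          · rw [if_neg (by omega), hs]; simp
          · rw [if_pos (by omega), ← map_add, ← map_add]
            congr 1
            push_cast
            ring
      · rw [if_neg hik, add_zero]
        have hne : ((i, j) : Fin m × Fin b) ≠ (k, j) := fun h' => hik (Prod.ext_iff.1 h').1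
        have e2 : (v + Finsupp.single (i, j) 1 : Fin m × Fin b →₀ ℕ) (k, j) = v (k, j) := by
          rw [Finsupp.add_apply, Finsupp.single_apply, if_neg hne, add_zero]
        rw [e2]
        rcases Nat.eq_zero_or_pos (v (k, j)) with h0 | h0
        · rw [h0]; simp
        · have e3 := nj_sub (j' := j) (show 1 ≤ v (k, j) from h0)
          rw [if_pos rfl] at e3
          rw [sub_add_comm' (show 1 ≤ v (k, j) from h0)]
          have e4 : s - nj (v - Finsupp.single (k, j) 1) j = s - nj v j + 1 := by omega
          rw [e4]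
          rcases Nat.eq_or_lt_of_le hge with hs | hs
          · rw [if_neg (by omega), hs]; simp
          · rw [if_pos (by omega), ← map_add]
            congr 1
            push_cast
            ring
  have h2 := LinearMap.congr_fun this p
  rw [LinearMap.add_apply, LinearMap.add_apply, LinearMap.comp_apply, LinearMap.comp_apply] at h2
  rw [h2]
  congr 1
  split_ifs
  · rfl
  · rfl

/-- the commutator of `D0 k` and `Fo i` -/
theorem comm (s : ℕ) (i k : Fin m) (p : R m b) :
    D0 s k (Fo s i p) + ∑ j, Ee s k i j p =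
      Fo s i (D0 s k p) + if i = k then ∑ j, Ad s j p else 0 := by
  have hL : D0 s k (Fo s i p) = ∑ j', ∑ j, An s k j' (Cr s i j p) := by
    simp only [D0, Fo, LinearMap.sum_apply, map_sum]
    rw [Finset.sum_comm]
  have hR : Fo s i (D0 s k p) = ∑ j', ∑ j, Cr s i j (An s k j' p) := by
    simp only [D0, Fo, LinearMap.sum_apply, map_sum]
  have h3 : (if i = k then ∑ j, (Ad s j p : R m b) else 0) =
      ∑ j, if i = k then (Ad s j p : R m b) else 0 := by
    split_ifs
    · rfl
    · rw [Finset.sum_const_zero]
  rw [hL, hR, h3, ← Finset.sum_add_distrib, ← Finset.sum_add_distrib]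
  refine Finset.sum_congr rfl fun j' _ => ?_
  have h5 : ∑ j, Cr s i j (An s k j' p) =
      Cr s i j' (An s k j' p) + ∑ j ∈ Finset.univ.erase j', Cr s i j (An s k j' p) :=
    (Finset.add_sum_erase Finset.univ (fun j => Cr s i j (An s k j' p)) (Finset.mem_univ j')).symm
  have h6 : ∑ j, An s k j' (Cr s i j p) =
      An s k j' (Cr s i j' p) + ∑ j ∈ Finset.univ.erase j', An s k j' (Cr s i j p) :=
    (Finset.add_sum_erase Finset.univ (fun j => An s k j' (Cr s i j p)) (Finset.mem_univ j')).symm
  have h4 : ∑ j ∈ Finset.univ.erase j', An s k j' (Cr s i j p) =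
      ∑ j ∈ Finset.univ.erase j', Cr s i j (An s k j' p) :=
    Finset.sum_congr rfl fun j hj => comm_ne s i k (Finset.mem_erase.1 hj).1 p
  rw [h5, h6, h4, add_right_comm, comm_eq, add_right_comm]

end Vale.Agent.P181.DU.H235
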