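import Vale.Agent.P181.DU.H235.Comm

set_option autoImplicit false

/-!
# P181, DU: the weighted form and the adjoints
-/

open MvPolynomial Finset

open scoped Nat

namespace Vale.Agent.P181.DU.H235

variable {m b : ℕ}

/-- The real form with weights `w`. -/
noncomputable def Qf (w : (Fin m × Fin b →₀ ℕ) → ℝ) (p q : R m b) : ℝ :=
  ∑ u ∈ p.support, w u * ((starRingEnd ℂ) (coeff u p) * coeff u q).re

theorem Qf_subset (w : (Fin m × Fin b →₀ ℕ) → ℝ) {p : R m b} (q : R m b)
    {S : Finset (Fin m × Fin b →₀ ℕ)} (h : p.support ⊆ S) :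
    Qf w p q = ∑ u ∈ S, w u * ((starRingEnd ℂ) (coeff u p) * coeff u q).re := by
  refine Finset.sum_subset h fun u _ hu => ?_
  rw [notMem_support_iff.1 hu, map_zero, zero_mul, Complex.zero_re, mul_zero]

theorem Qf_add_right (w : (Fin m × Fin b →₀ ℕ) → ℝ) (p q q' : R m b) :
    Qf w p (q + q') = Qf w p q + Qf w p q' := by
  unfold Qf
  rw [← Finset.sum_add_distrib]
  refine Finset.sum_congr rfl fun u _ => ?_
  rw [coeff_add, mul_add, Complex.add_re, mul_add]

theorem Qf_add_left (w : (Fin m × Fin b →₀ ℕ) → ℝ) (p p' q : R m b) :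
    Qf w (p + p') q = Qf w p q + Qf w p' q := by
  classical
  have h1 : p.support ⊆ p.support ∪ p'.support := Finset.subset_union_left
  have h2 : p'.support ⊆ p.support ∪ p'.support := Finset.subset_union_right
  have h3 : (p + p').support ⊆ p.support ∪ p'.support := support_add
  rw [Qf_subset w q h1, Qf_subset w q h2, Qf_subset w q h3, ← Finset.sum_add_distrib]
  refine Finset.sum_congr rfl fun u _ => ?_
  rw [coeff_add, map_add, add_mul, Complex.add_re, mul_add]

/-- additive in the right argument -/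
noncomputable def QR (w : (Fin m × Fin b →₀ ℕ) → ℝ) (p : R m b) : R m b →+ ℝ :=
  AddMonoidHom.mk' (Qf w p) (Qf_add_right w p)

/-- additive in the left argument -/
noncomputable def QL (w : (Fin m × Fin b →₀ ℕ) → ℝ) (q : R m b) : R m b →+ ℝ :=
  AddMonoidHom.mk' (fun p => Qf w p q) (fun p p' => Qf_add_left w p p' q)

theorem Qf_sum_right {κ : Type*} (w : (Fin m × Fin b →₀ ℕ) → ℝ) (p : R m b) (s : Finset κ)
    (f : κ → R m b) : Qf w p (∑ i ∈ s, f i) = ∑ i ∈ s, Qf w p (f i) :=
  map_sum (QR w p) f s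

theorem Qf_sum_left {κ : Type*} (w : (Fin m × Fin b →₀ ℕ) → ℝ) (q : R m b) (s : Finset κ)
    (f : κ → R m b) : Qf w (∑ i ∈ s, f i) q = ∑ i ∈ s, Qf w (f i) q :=
  map_sum (QL w q) f s

theorem Qf_zero_right (w : (Fin m × Fin b →₀ ℕ) → ℝ) (p : R m b) : Qf w p 0 = 0 :=
  map_zero (QR w p)

theorem Qf_zero_left (w : (Fin m × Fin b →₀ ℕ) → ℝ) (q : R m b) : Qf w 0 q = 0 :=
  map_zero (QL w q)

theorem Qf_sub_right (w : (Fin m × Fin b →₀ ℕ) → ℝ) (p q q' : R m b) :
    Qf w p (q - q') = Qf w p q - Qf w p q' :=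
  map_sub (QR w p) q q'

theorem Qf_sub_left (w : (Fin m × Fin b →₀ ℕ) → ℝ) (p p' q : R m b) :
    Qf w (p - p') q = Qf w p q - Qf w p' q :=
  map_sub (QL w q) p p'

theorem Qf_symm (w : (Fin m × Fin b →₀ ℕ) → ℝ) (p q : R m b) : Qf w p q = Qf w q p := by
  classical
  have h1 : p.support ⊆ p.support ∪ q.support := Finset.subset_union_left
  have h2 : q.support ⊆ p.support ∪ q.support := Finset.subset_union_right
  rw [Qf_subset w q h1, Qf_subset w p h2]
  refine Finset.sum_congr rfl fun u _ => ?_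
  congr 1
  simp only [Complex.mul_re, Complex.conj_re, Complex.conj_im]
  ring

theorem Qf_mono (w : (Fin m × Fin b →₀ ℕ) → ℝ) (u v : Fin m × Fin b →₀ ℕ) (a c : ℂ) :
    Qf w (monomial u a) (monomial v c) = if u = v then w u * ((starRingEnd ℂ) a * c).re else 0 := by
  classical
  rw [Qf_subset w _ support_monomial_subset, Finset.sum_singleton, coeff_monomial, if_pos rfl,
    coeff_monomial]
  by_cases h : u = v
  · rw [if_pos h, if_pos h.symm]
  · rw [if_neg h, if_neg (Ne.symm h), mul_zero, Complex.zero_re, mul_zero]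

theorem re_self (z : ℂ) : ((starRingEnd ℂ) z * z).re = Complex.normSq z := by
  rw [mul_comm, Complex.mul_conj, Complex.ofReal_re]

theorem Qf_self_nonneg {w : (Fin m × Fin b →₀ ℕ) → ℝ} (hw : ∀ u, 0 ≤ w u) (p : R m b) :
    0 ≤ Qf w p p := by
  refine Finset.sum_nonneg fun u _ => ?_
  rw [re_self]
  exact mul_nonneg (hw u) (Complex.normSq_nonneg _)

theorem Qf_self_eq {w : (Fin m × Fin b →₀ ℕ) → ℝ} (hw : ∀ u, 0 < w u) {p : R m b}
    (h : Qf w p p ≤ 0) : p = 0 := by
  by_contra hp
  obtain ⟨u, hu⟩ := Finset.nonempty_of_ne_empty (fun h' => hp (support_eq_empty.1 h'))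
  have h1 : Qf w p p = 0 := le_antisymm h (Qf_self_nonneg (fun u => (hw u).le) p)
  have h2 := (Finset.sum_eq_zero_iff_of_nonneg (fun u _ => by
    rw [re_self]
    exact mul_nonneg (hw u).le (Complex.normSq_nonneg _))).1 h1 u hu
  rw [re_self] at h2
  rcases mul_eq_zero.1 h2 with h3 | h3
  · exact absurd h3 (hw u).ne'
  · exact mem_support_iff.1 hu (Complex.normSq_eq_zero.1 h3)

/-- equality of two bi-additive expressions on monomials -/
theorem bi_ext {f g : R m b → R m b → ℝ}
    (hf1 : ∀ p p' q, f (p + p') q = f p q + f p' q) (hf2 : ∀ p q q', f p (q + q') = f p q + f p q')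
    (hg1 : ∀ p p' q, g (p + p') q = g p q + g p' q) (hg2 : ∀ p q q', g p (q + q') = g p q + g p q')
    (h : ∀ u v a c, f (monomial u a) (monomial v c) = g (monomial u a) (monomial v c))
    (p q : R m b) : f p q = g p q := by
  refine ind_mono (P := fun p => f p q = g p q) (fun u a => ?_) (fun p p' hp hp' => ?_) p
  · refine ind_mono (P := fun q => f (monomial u a) q = g (monomial u a) q) (fun v c => ?_)
      (fun q q' hq hq' => ?_) q
    · exact h u v a c
    · rw [hf2, hg2, hq, hq']
  · rw [hf1, hg1, hp, hp']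

/-! ### the weights -/

/-- the weight of the form `B` -/
noncomputable def cw (s : ℕ) (v : Fin m × Fin b →₀ ℕ) : ℝ :=
  (∏ x, ((v x)! : ℝ)) * ∏ j, ((s - nj v j)! : ℝ)

theorem cw_pos (s : ℕ) (v : Fin m × Fin b →₀ ℕ) : 0 < cw s v := by
  unfold cw
  refine mul_pos (Finset.prod_pos fun x _ => ?_) (Finset.prod_pos fun j _ => ?_)
  · exact_mod_cast Nat.factorial_pos _
  · exact_mod_cast Nat.factorial_pos _

theorem prod_change {κ : Type*} [Fintype κ] [DecidableEq κ] (f g : κ → ℝ) (x : κ) (c d : ℝ)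
    (h : ∀ y, y ≠ x → f y = g y) (hx : f x * c = g x * d) :
    (∏ y, f y) * c = (∏ y, g y) * d := by
  rw [← Finset.mul_prod_erase Finset.univ f (Finset.mem_univ x),
    ← Finset.mul_prod_erase Finset.univ g (Finset.mem_univ x)]
  have h1 : ∏ y ∈ Finset.univ.erase x, f y = ∏ y ∈ Finset.univ.erase x, g y :=
    Finset.prod_congr rfl fun y hy => h y (Finset.mem_erase.1 hy).1
  rw [h1, mul_right_comm, hx]
  ring

theorem cw_add (s : ℕ) (v : Fin m × Fin b →₀ ℕ) (i : Fin m) (j : Fin b) (h : nj v j < s) :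
    cw s (v + Finsupp.single (i, j) 1) * ((s - nj v j : ℕ) : ℝ) =
      cw s v * ((v (i, j) : ℕ) + 1 : ℝ) := by
  classical
  have h1 : (∏ x, (((v + Finsupp.single (i, j) 1 : Fin m × Fin b →₀ ℕ) x)! : ℝ)) * 1 =
      (∏ x, ((v x)! : ℝ)) * ((v (i, j) : ℕ) + 1 : ℝ) := by
    refine prod_change _ _ (i, j) _ _ (fun y hy => ?_) ?_
    · rw [Finsupp.add_apply, Finsupp.single_apply, if_neg (Ne.symm hy), add_zero]
    · rw [Finsupp.add_apply, Finsupp.single_apply, if_pos rfl, Nat.factorial_succ]
      push_cast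
      ring
  have h2 : (∏ j', ((s - nj (v + Finsupp.single (i, j) 1) j')! : ℝ)) * ((s - nj v j : ℕ) : ℝ) =
      (∏ j', ((s - nj v j')! : ℝ)) * 1 := by
    refine prod_change _ _ j _ _ (fun y hy => ?_) ?_
    · rw [nj_add, nj_single, if_neg (Ne.symm hy), add_zero]
    · rw [nj_add, nj_single, if_pos rfl, mul_one]
      obtain ⟨t, ht⟩ : ∃ t, s - nj v j = t + 1 := ⟨s - nj v j - 1, by omega⟩
      have ht' : s - (nj v j + 1) = t := by omega
      rw [ht, ht', Nat.factorial_succ]
      push_cast
      ring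
  unfold cw
  rw [mul_one] at h1 h2
  rw [h1, mul_assoc, h2]
  ring

/-- the weight of column `j` -/
noncomputable def cj (s : ℕ) (j : Fin b) (v : Fin m × Fin b →₀ ℕ) : ℝ :=
  if nj v j < s then cw s v / ((s - nj v j : ℕ) : ℝ) else 0

theorem cj_nonneg (s : ℕ) (j : Fin b) (v : Fin m × Fin b →₀ ℕ) : 0 ≤ cj s j v := by
  unfold cj
  split_ifs
  · exact div_nonneg (cw_pos s v).le (Nat.cast_nonneg _)
  · exact le_rfl

theorem cj_add (s : ℕ) (v : Fin m × Fin b →₀ ℕ) (i : Fin m) (j : Fin b) (h : nj v j < s) :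
    cw s (v + Finsupp.single (i, j) 1) = cj s j v * ((v (i, j) : ℕ) + 1 : ℝ) := by
  have h1 : ((s - nj v j : ℕ) : ℝ) ≠ 0 := by
    have : s - nj v j ≠ 0 := by omega
    exact_mod_cast this
  rw [cj, if_pos h, div_mul_eq_mul_div, ← cw_add s v i j h, mul_div_assoc, div_self h1, mul_one]

/-! ### adjoints -/

theorem re_mul (a c : ℂ) (x y : ℝ) :
    ((starRingEnd ℂ) (a * (x : ℂ)) * (c * (y : ℂ))).re = ((starRingEnd ℂ) a * c).re * (x * y) := by
  rw [map_mul, Complex.conj_ofReal]
  have : (starRingEnd ℂ) a * (x : ℂ) * (c * (y : ℂ)) = ((starRingEnd ℂ) a * c) * ((x * y : ℝ) : ℂ) := by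
    push_cast
    ring
  rw [this, Complex.re_mul_ofReal]

theorem re_mul_nat (a c : ℂ) (x y : ℕ) :
    ((starRingEnd ℂ) (a * (x : ℂ)) * (c * (y : ℂ))).re = ((starRingEnd ℂ) a * c).re * (x * y) := by
  have := re_mul a c x y
  simpa using this

theorem adj_Cr (s : ℕ) (i : Fin m) (j : Fin b) (p q : R m b) :
    Qf (cw s) (Cr s i j p) q = Qf (cw s) p (An s i j q) := by
  refine bi_ext (f := fun p q => Qf (cw s) (Cr s i j p) q)
    (g := fun p q => Qf (cw s) p (An s i j q)) ?_ ?_ ?_ ?_ ?_ p q
  · intro p p' q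
    simp only [map_add, Qf_add_left]
  · intro p q q'
    simp only [Qf_add_right]
  · intro p p' q
    simp only [Qf_add_left]
  · intro p q q'
    simp only [map_add, Qf_add_right]
  · intro u v a c
    simp only [Cr_mono, An_mono]
    rw [Qf_mono]
    by_cases hv : u + Finsupp.single (i, j) 1 = v
    · subst hv
      rw [if_pos rfl]
      have e1 : nj (u + Finsupp.single (i, j) 1) j = nj u j + 1 := by
        rw [nj_add, nj_single, if_pos rfl]
      have e2 : (u + Finsupp.single (i, j) 1 : Fin m × Fin b →₀ ℕ) (i, j) = u (i, j) + 1 := by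
        rw [Finsupp.add_apply, Finsupp.single_apply, if_pos rfl]
      rw [e1, e2, add_single_sub]
      have r1 := re_mul_nat a c (s - nj u j) 1
      have r2 := re_mul_nat a c 1 (u (i, j) + 1)
      simp only [Nat.cast_one, mul_one, one_mul] at r1 r2
      rcases lt_or_ge (nj u j) s with hlt | hge
      · rw [if_pos (by omega), Qf_mono, if_pos rfl, r1, r2]
        have h3 := cw_add s u i j hlt
        push_cast at h3 ⊢
        linear_combination ((starRingEnd ℂ) a * c).re * h3
      · rw [if_neg (by omega), Qf_zero_right, r1, Nat.sub_eq_zero_of_le hge]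
        simp
    · rw [if_neg hv]
      split_ifs with hs
      · rw [Qf_mono]
        split_ifs with h3
        · rcases Nat.eq_zero_or_pos (v (i, j)) with h0 | h0
          · rw [h0]; simp
          · exfalso
            apply hv
            rw [h3, sub_add_single (show 1 ≤ v (i, j) from h0)]
        · rfl
      · rw [Qf_zero_right]

theorem adj_Fo (s : ℕ) (i : Fin m) (p q : R m b) :
    Qf (cw s) (Fo s i p) q = Qf (cw s) p (D0 s i q) := by
  rw [Fo, D0, LinearMap.sum_apply, LinearMap.sum_apply, Qf_sum_left, Qf_sum_right]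
  exact Finset.sum_congr rfl fun j _ => adj_Cr s i j p q

theorem adj_Fo' (s : ℕ) (i : Fin m) (p q : R m b) :
    Qf (cw s) p (Fo s i q) = Qf (cw s) (D0 s i p) q := by
  rw [Qf_symm, adj_Fo, Qf_symm]

theorem adj_Ee (s : ℕ) (k i : Fin m) (j : Fin b) (p q : R m b) :
    Qf (cw s) p (Ee s k i j q) = Qf (cj s j) (pderiv (i, j) p) (pderiv (k, j) q) := by
  refine bi_ext (f := fun p q => Qf (cw s) p (Ee s k i j q))
    (g := fun p q => Qf (cj s j) (pderiv (i, j) p) (pderiv (k, j) q)) ?_ ?_ ?_ ?_ ?_ p q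
  · intro p p' q
    simp only [Qf_add_left]
  · intro p q q'
    simp only [map_add, Qf_add_right]
  · intro p p' q
    simp only [map_add, Qf_add_left]
  · intro p q q'
    simp only [map_add, Qf_add_right]
  · intro u v a c
    simp only [Ee_mono, pderiv_monomial]
    rw [Qf_mono]
    rcases Nat.eq_zero_or_pos (v (k, j)) with hv0 | hv0
    · -- both vanish
      simp [hv0, Qf_zero_right]
    rcases Nat.eq_zero_or_pos (u (i, j)) with hu0 | hu0
    · rw [hu0, Nat.cast_zero, mul_zero, map_zero, zero_mul, Complex.zero_re, mul_zero, ite_self]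
      split_ifs with hs
      · rw [Qf_mono, if_neg]
        intro h
        rw [h, Finsupp.add_apply, Finsupp.single_apply, if_pos rfl] at hu0
        omega
      · rw [Qf_zero_right]
    · by_cases huv : u - Finsupp.single (i, j) 1 = v - Finsupp.single (k, j) 1
      · rw [if_pos huv]
        obtain ⟨y, hy⟩ : ∃ y, y = v - Finsupp.single (k, j) 1 := ⟨_, rfl⟩
        have hu : u = y + Finsupp.single (i, j) 1 := by
          rw [hy, ← huv, sub_add_single (show 1 ≤ u (i, j) from hu0)]
        have hv : v = y + Finsupp.single (k, j) 1 := by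
          rw [hy, sub_add_single (show 1 ≤ v (k, j) from hv0)]
        have e1 : nj v j = nj y j + 1 := by
          rw [hv, nj_add, nj_single, if_pos rfl]
        have e2 : u (i, j) = y (i, j) + 1 := by
          rw [hu, Finsupp.add_apply, Finsupp.single_apply, if_pos rfl]
        rw [huv, ← hy, e1, re_mul_nat]
        rcases lt_or_ge (nj y j) s with hlt | hge
        · rw [if_pos (by omega), ← hu, Qf_mono, if_pos rfl]
          have r1 := re_mul_nat a c 1 (v (k, j))
          simp only [Nat.cast_one, mul_one, one_mul] at r1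
          rw [r1]
          have h3 := cj_add s y i j hlt
          rw [← hu] at h3
          rw [h3, e2]
          push_cast
          ring
        · rw [if_neg (by omega), Qf_zero_right, cj, if_neg (by omega), zero_mul]
      · rw [if_neg huv]
        split_ifs with hs
        · rw [Qf_mono, if_neg]
          intro h
          apply huv
          rw [h, add_single_sub]
        · rw [Qf_zero_right]

end Vale.Agent.P181.DU.H235
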