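import Vale.Agent.P181.DU.H235.Pos

set_option autoImplicit false

/-!
# P181, DU: the excess step and the comparison of the kernels
-/

open MvPolynomial Finset

namespace Vale.Agent.P181.DU.H235

variable {m b : ℕ}

/-- the excess -/
def exc (s : ℕ) (v : Fin m × Fin b →₀ ℕ) : ℕ := ∑ j, (nj v j - s)

/-- the part of excess `e` -/
noncomputable def Pe (s e : ℕ) : R m b →ₗ[ℂ] R m b :=
  op fun v => if exc s v = e then monomial v 1 else 0

theorem Pe_mono (s e : ℕ) (v : Fin m × Fin b →₀ ℕ) (a : ℂ) :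
    Pe s e (monomial v a : R m b) = if exc s v = e then monomial v a else 0 := by
  simp only [Pe, op_mono]
  split_ifs
  · rw [smul_monomial, smul_eq_mul, mul_one]
  · rw [smul_zero]

theorem coeff_Pe (s e : ℕ) (u : Fin m × Fin b →₀ ℕ) (p : R m b) :
    coeff u (Pe s e p) = if exc s u = e then coeff u p else 0 := by
  refine ind_mono (P := fun p => coeff u (Pe s e p) = if exc s u = e then coeff u p else 0)
    (fun v a => ?_) (fun p q hp hq => ?_) p
  · rw [Pe_mono, coeff_monomial]
    by_cases h : v = u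
    · subst h
      rw [if_pos rfl]
      by_cases he : exc s v = e
      · rw [if_pos he, if_pos he, coeff_monomial, if_pos rfl]
      · rw [if_neg he, if_neg he, coeff_zero]
    · rw [if_neg h, ite_self]
      split_ifs
      · rw [coeff_monomial, if_neg h]
      · rw [coeff_zero]
  · rw [map_add, coeff_add, coeff_add, hp, hq]
    split_ifs
    · rfl
    · rw [add_zero]

theorem coeff_pd (x : Fin m × Fin b) (u : Fin m × Fin b →₀ ℕ) (p : R m b) :
    coeff u (pderiv x p) = coeff (u + Finsupp.single x 1) p * ((u x : ℂ) + 1) := by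
  refine ind_mono (P := fun p => coeff u (pderiv x p) =
    coeff (u + Finsupp.single x 1) p * ((u x : ℂ) + 1)) (fun v a => ?_) (fun p q hp hq => ?_) p
  · rw [pderiv_monomial, coeff_monomial, coeff_monomial]
    by_cases hv : v = u + Finsupp.single x 1
    · subst hv
      rw [if_pos (add_single_sub u x), if_pos rfl, Finsupp.add_apply, Finsupp.single_apply,
        if_pos rfl]
      push_cast
      ring
    · rw [if_neg hv, zero_mul]
      split_ifs with h
      · rcases Nat.eq_zero_or_pos (v x) with h0 | h0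
        · rw [h0]; simp
        · exfalso
          apply hv
          rw [← h, sub_add_single (show 1 ≤ v x from h0)]
      · rfl
  · rw [map_add, coeff_add, coeff_add, hp, hq, add_mul]

theorem exc_add_lt {s : ℕ} {v : Fin m × Fin b →₀ ℕ} {i : Fin m} {j : Fin b} (h : nj v j < s) :
    exc s (v + Finsupp.single (i, j) 1) = exc s v := by
  unfold exc
  refine Finset.sum_congr rfl fun j' _ => ?_
  rw [nj_add, nj_single]
  split_ifs with hj
  · subst hj
    omega
  · rw [add_zero]

theorem exc_add_ge {s : ℕ} {v : Fin m × Fin b →₀ ℕ} {i : Fin m} {j : Fin b} (h : s ≤ nj v j) :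
    exc s (v + Finsupp.single (i, j) 1) = exc s v + 1 := by
  unfold exc
  rw [← Finset.add_sum_erase Finset.univ _ (Finset.mem_univ j),
    ← Finset.add_sum_erase Finset.univ (fun j => nj v j - s) (Finset.mem_univ j)]
  have h1 : ∑ j' ∈ Finset.univ.erase j, (nj (v + Finsupp.single (i, j) 1) j' - s) =
      ∑ j' ∈ Finset.univ.erase j, (nj v j' - s) := by
    refine Finset.sum_congr rfl fun j' hj' => ?_
    rw [nj_add, nj_single, if_neg (Ne.symm (Finset.mem_erase.1 hj').1), add_zero]
  rw [h1, nj_add, nj_single, if_pos rfl]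
  omega

theorem Pe_Cr (s e : ℕ) (i : Fin m) (j : Fin b) (p : R m b) :
    Pe s e (Cr s i j p) = Cr s i j (Pe s e p) := by
  refine ind_mono (P := fun p => Pe s e (Cr s i j p) = Cr s i j (Pe s e p))
    (fun v a => ?_) (fun p q hp hq => ?_) p
  · rw [Cr_mono, Pe_mono, Pe_mono]
    rcases lt_or_ge (nj v j) s with h | h
    · rw [exc_add_lt h]
      split_ifs
      · rw [Cr_mono]
      · rw [map_zero]
    · rw [Nat.sub_eq_zero_of_le h, Nat.cast_zero, mul_zero, map_zero, ite_self]
      split_ifs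
      · rw [Cr_mono, Nat.sub_eq_zero_of_le h, Nat.cast_zero, mul_zero, map_zero]
      · rw [map_zero]
  · simp only [map_add, hp, hq]

theorem Pe_An (s e : ℕ) (i : Fin m) (j : Fin b) (p : R m b) :
    Pe s e (An s i j p) = An s i j (Pe s e p) := by
  ext u
  rw [coeff_Pe, coeff_An, coeff_An, coeff_Pe]
  by_cases h : ∑ a, u (a, j) < s
  · rw [if_pos h, if_pos h, exc_add_lt (show nj u j < s from h)]
    split_ifs
    · rfl
    · rw [zero_mul]
  · rw [if_neg h, if_neg h, ite_self]

theorem Pe_pd {s e : ℕ} (i : Fin m) (j : Fin b) {p : R m b}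
    (hp : ∀ v, coeff v p ≠ 0 → exc s v < e + 1) :
    Pe s e (pderiv (i, j) p) = Pe s e (An s i j p) := by
  ext u
  rw [coeff_Pe, coeff_Pe, coeff_An, coeff_pd]
  by_cases he : exc s u = e
  · rw [if_pos he, if_pos he]
    by_cases h : ∑ a, u (a, j) < s
    · rw [if_pos h]
    · rw [if_neg h]
      have h1 : coeff (u + Finsupp.single (i, j) 1) p = 0 := by
        by_contra h2
        have h3 := hp _ h2
        rw [exc_add_ge (show s ≤ nj u j from not_lt.1 h)] at h3
        omega
      rw [h1, zero_mul]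
  · rw [if_neg he, if_neg he]

/-- `Σ_j ∂_ij` -/
noncomputable def dT (i : Fin m) : R m b →ₗ[ℂ] R m b :=
  ∑ j : Fin b, (pderiv (i, j) : Derivation ℂ (R m b) (R m b)).toLinearMap

theorem dT_apply (i : Fin m) (p : R m b) : dT i p = ∑ j : Fin b, pderiv (i, j) p := by
  rw [dT, LinearMap.sum_apply]
  rfl

theorem pd_comm (x y : Fin m × Fin b) (p : R m b) :
    pderiv x (pderiv y p) = pderiv y (pderiv x p) := by
  ext u
  rw [coeff_pd, coeff_pd, coeff_pd, coeff_pd]
  by_cases h : x = y
  · subst h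
    rfl
  · have h1 : (u + Finsupp.single x 1 : Fin m × Fin b →₀ ℕ) y = u y := by
      rw [Finsupp.add_apply, Finsupp.single_apply, if_neg h, add_zero]
    have h2 : (u + Finsupp.single y 1 : Fin m × Fin b →₀ ℕ) x = u x := by
      rw [Finsupp.add_apply, Finsupp.single_apply, if_neg (Ne.symm h), add_zero]
    rw [h1, h2, add_right_comm u (Finsupp.single x 1) (Finsupp.single y 1)]
    ring

theorem Pe_Fo (s e : ℕ) (i : Fin m) (p : R m b) : Pe s e (Fo s i p) = Fo s i (Pe s e p) := by
  simp only [Fo, LinearMap.sum_apply, map_sum, Pe_Cr]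

theorem Pe_D0 (s e : ℕ) (i : Fin m) (p : R m b) : Pe s e (D0 s i p) = D0 s i (Pe s e p) := by
  simp only [D0, LinearMap.sum_apply, map_sum, Pe_An]

theorem Pe_dT {s e : ℕ} (i : Fin m) {p : R m b} (hp : ∀ v, coeff v p ≠ 0 → exc s v < e + 1) :
    Pe s e (dT i p) = D0 s i (Pe s e p) := by
  rw [← Pe_D0, dT_apply, D0, LinearMap.sum_apply, map_sum, map_sum]
  exact Finset.sum_congr rfl fun j _ => Pe_pd i j hp

/-- the excess step -/
theorem posE (s N : ℕ) : ∀ H : Fin m → R m b, (∀ i v, coeff v (H i) ≠ 0 → exc s v < N) →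
    ∑ i, Fo s i (H i) = 0 → (∀ i k, dT k (H i) = dT i (H k)) →
    (∀ i, ∀ v, coeff v (H i) ≠ 0 → 2 * ∑ x, v x < b * s) → ∀ i, H i = 0 := by
  induction N with
  | zero =>
    intro H hN _ _ _ i
    ext v
    by_contra h
    exact absurd (hN i v h) (Nat.not_lt_zero _)
  | succ N ih =>
    intro H hN hF hd hs
    have hz : ∀ i, Pe s N (H i) = 0 := by
      refine posH s (fun i => Pe s N (H i)) ?_ (fun i k => ?_) (fun i v hv => ?_)
      · have h := congrArg (Pe s N) hF
        rw [map_zero, map_sum] at h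
        simpa only [Pe_Fo] using h
      · have h := congrArg (Pe s N) (hd i k)
        rwa [Pe_dT k (hN i), Pe_dT i (hN k)] at h
      · refine hs i v fun h => hv ?_
        rw [coeff_Pe, h, ite_self]
    refine ih H (fun i v hv => ?_) hF hd hs
    refine lt_of_le_of_ne (Nat.lt_succ_iff.1 (hN i v hv)) fun h => hv ?_
    have h1 := congrArg (coeff v) (hz i)
    rwa [coeff_Pe, if_pos h, coeff_zero] at h1

/-- **(b)** -/
theorem ker_sub (s D : ℕ) (p : R m b) (hD : ∀ v ∈ p.support, ∑ x, v x = D)
    (hs : 2 * D ≤ b * s + 1) (hp : ∑ i, Fo s i (dT i p) = 0) (i : Fin m) : dT i p = 0 := by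
  classical
  have hdeg : ∀ i, ∀ v, coeff v (dT i p) ≠ 0 → 2 * ∑ x, v x < b * s := by
    intro i v hv
    rw [dT_apply, coeff_sum] at hv
    obtain ⟨j, -, hj⟩ := Finset.exists_ne_zero_of_sum_ne_zero hv
    rw [coeff_pd] at hj
    have h1 := hD _ (mem_support_iff.2 (left_ne_zero_of_mul hj))
    have h2 : ∑ x, (v + Finsupp.single (i, j) 1 : Fin m × Fin b →₀ ℕ) x = ∑ x, v x + 1 := by
      simp only [Finsupp.add_apply, Finset.sum_add_distrib]
      congr 1
      rw [Finset.sum_eq_single (i, j)]
      · simp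
      · intro y _ hy
        rw [Finsupp.single_apply, if_neg (Ne.symm hy)]
      · intro h
        exact absurd (Finset.mem_univ _) h
    rw [h2] at h1
    omega
  refine posE s (D + 1) (fun i => dT i p) (fun i v hv => ?_) hp (fun i k => ?_) hdeg i
  · have h1 : exc s v ≤ ∑ x, v x := by
      rw [Fintype.sum_prod_type, Finset.sum_comm]
      exact Finset.sum_le_sum fun j _ => Nat.sub_le _ _
    -- the degree of `v` is at most `D`
    rw [dT_apply, coeff_sum] at hv
    obtain ⟨j, -, hj⟩ := Finset.exists_ne_zero_of_sum_ne_zero hv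
    rw [coeff_pd] at hj
    have h2 := hD _ (mem_support_iff.2 (left_ne_zero_of_mul hj))
    have h3 : ∑ x, v x ≤ ∑ x, (v + Finsupp.single (i, j) 1 : Fin m × Fin b →₀ ℕ) x :=
      Finset.sum_le_sum fun x _ => by
        rw [Finsupp.add_apply]
        exact Nat.le_add_right _ _
    omega
  · -- the derivatives commute
    show dT k (dT i p) = dT i (dT k p)
    simp only [dT_apply, map_sum]
    rw [Finset.sum_comm]
    refine Finset.sum_congr rfl fun j _ => Finset.sum_congr rfl fun j' _ => ?_
    exact pd_comm _ _ _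

/-- **the comparison of the kernels** -/
theorem inter_le (m b s D : ℕ) (M : Submodule ℂ (R m b)) [FiniteDimensional ℂ M]
    (hD : ∀ p ∈ M, ∀ v ∈ p.support, ∑ x, v x = D) (hs : 2 * D ≤ b * s + 1)
    (hL : ∀ p ∈ M, ∑ i, Fo s i (∑ j : Fin b, pderiv (i, j) p) ∈ M) :
    Module.finrank ℂ ↥(M ⊓ ⨅ i, LinearMap.ker (D0 s i)) ≤
      Module.finrank ℂ ↥(M ⊓ ⨅ i, LinearMap.ker (dT i : R m b →ₗ[ℂ] R m b)) := by
  classical
  let T : R m b →ₗ[ℂ] R m b := ∑ i, Fo s i ∘ₗ dT i
  have hT : ∀ p, T p = ∑ i, Fo s i (dT i p) := fun p => by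
    simp only [T, LinearMap.sum_apply, LinearMap.comp_apply]
  have hTM : ∀ p ∈ M, T p ∈ M := fun p hp => by
    have h := hL p hp
    simp only [← dT_apply] at h
    rw [hT]
    exact h
  let L : M →ₗ[ℂ] M := T.restrict hTM
  let K0 : Submodule ℂ M := Submodule.comap M.subtype (⨅ i, LinearMap.ker (D0 s i))
  let K1 : Submodule ℂ M :=
    Submodule.comap M.subtype (⨅ i, LinearMap.ker (dT i : R m b →ₗ[ℂ] R m b))
  have hdis : Disjoint (LinearMap.range L) K0 := by
    rw [Submodule.disjoint_def]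
    rintro p ⟨q, hq⟩ hp
    have h1 : (p : R m b) = ∑ i, Fo s i (dT i (q : R m b)) := by
      rw [← hq, ← hT]
      rfl
    have h2 : ∀ i, D0 s i (p : R m b) = 0 := fun i => by
      have h3 := (Submodule.mem_iInf _).1 (Submodule.mem_comap.1 hp) i
      exact LinearMap.mem_ker.1 h3
    exact Subtype.ext (range_inf_ker s (p : R m b) _ h1 h2)
  have hker : LinearMap.ker L ≤ K1 := by
    intro p hp
    refine Submodule.mem_comap.2 ((Submodule.mem_iInf _).2 fun i => LinearMap.mem_ker.2 ?_)
    refine ker_sub s D (p : R m b) (hD _ p.2) hs ?_ i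
    rw [← hT]
    exact congrArg Subtype.val (LinearMap.mem_ker.1 hp)
  have h1 := Submodule.finrank_add_finrank_le_of_disjoint hdis
  have h2 := LinearMap.finrank_range_add_finrank_ker L
  have h3 : Module.finrank ℂ (LinearMap.ker L) ≤ Module.finrank ℂ K1 := Submodule.finrank_mono hker
  have e : ∀ X : Submodule ℂ (R m b), Module.finrank ℂ ↥(M ⊓ X) =
      Module.finrank ℂ ↥(Submodule.comap M.subtype X) := by
    intro X
    have h := (Submodule.comapSubtypeEquivOfLe (inf_le_left : M ⊓ X ≤ M)).finrank_eq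
    have hc : Submodule.comap M.subtype (M ⊓ X) = Submodule.comap M.subtype X := by
      ext p
      simp
    rw [← h, hc]
  rw [e, e]
  show Module.finrank ℂ K0 ≤ Module.finrank ℂ K1
  omega

end Vale.Agent.P181.DU.H235
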