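import Mathlib

set_option autoImplicit false

/-!
# P181, DU: the letter-free heart of `LowU`

Polynomials in `x_ij`, `i < m`, `j < b`; `n_j` = degree in column `j`. `Fo s i` multiplies by
`∑_j (s - n_j)^+ x_ij` and `D0 s i` is the part of `∑_j ∂_ij` from the columns with `n_j ≤ s`.
-/

open MvPolynomial Finset

namespace Vale.Agent.P181.DU.H235

noncomputable section

variable {m b : ℕ}

/-- The degree in column `j`. -/
def nj (v : Fin m × Fin b →₀ ℕ) (j : Fin b) : ℕ := ∑ i, v (i, j)

/-- The polynomial ring. -/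
abbrev R (m b : ℕ) := MvPolynomial (Fin m × Fin b) ℂ

/-- The linear map with given values on the monomials. -/
def op (g : (Fin m × Fin b →₀ ℕ) → R m b) : R m b →ₗ[ℂ] R m b :=
  (basisMonomials (Fin m × Fin b) ℂ).constr ℂ g

theorem op_mono (g : (Fin m × Fin b →₀ ℕ) → R m b) (v : Fin m × Fin b →₀ ℕ) (a : ℂ) :
    op g (monomial v a) = a • g v := by
  have h1 : (monomial v a : R m b) = a • (monomial v (1 : ℂ)) := by
    rw [smul_monomial, smul_eq_mul, mul_one]
  rw [h1, map_smul]
  congr 1
  have h := (basisMonomials (Fin m × Fin b) ℂ).constr_basis ℂ g v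
  rwa [coe_basisMonomials] at h

theorem ext_mono {f g : R m b →ₗ[ℂ] R m b} (h : ∀ v, f (monomial v 1) = g (monomial v 1)) :
    f = g := by
  refine (basisMonomials (Fin m × Fin b) ℂ).ext fun v => ?_
  rw [coe_basisMonomials]
  exact h v

/-- creation -/
def Cr (s : ℕ) (i : Fin m) (j : Fin b) : R m b →ₗ[ℂ] R m b :=
  op fun v => monomial (v + Finsupp.single (i, j) 1) ((s - nj v j : ℕ) : ℂ)

/-- annihilation -/
def An (s : ℕ) (i : Fin m) (j : Fin b) : R m b →ₗ[ℂ] R m b :=
  op fun v => if nj v j ≤ s then monomial (v - Finsupp.single (i, j) 1) ((v (i, j) : ℕ) : ℂ) else 0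

/-- diagonal part of the commutator -/
def Ad (s : ℕ) (j : Fin b) : R m b →ₗ[ℂ] R m b :=
  op fun v => monomial v ((s - nj v j : ℕ) : ℂ)

/-- polarisation part of the commutator -/
def Ee (s : ℕ) (k i : Fin m) (j : Fin b) : R m b →ₗ[ℂ] R m b :=
  op fun v => if nj v j ≤ s then
    monomial (v - Finsupp.single (k, j) 1 + Finsupp.single (i, j) 1) ((v (k, j) : ℕ) : ℂ) else 0

/-- `∑_j (s - n_j)^+ x_ij` -/
def Fo (s : ℕ) (i : Fin m) : R m b →ₗ[ℂ] R m b := ∑ j, Cr s i j

/-- the part of `∑_j ∂_ij` from the columns with `n_j ≤ s` -/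
def D0 (s : ℕ) (i : Fin m) : R m b →ₗ[ℂ] R m b := ∑ j, An s i j

theorem Fo_mono (s : ℕ) (i : Fin m) (v : Fin m × Fin b →₀ ℕ) (c : ℂ) :
    Fo s i (monomial v c) = ∑ j, monomial (v + Finsupp.single (i, j) 1)
      (c * ((s - ∑ i', v (i', j) : ℕ) : ℂ)) := by
  simp only [Fo, LinearMap.sum_apply, Cr, op_mono, smul_monomial, smul_eq_mul, nj]

theorem D0_mono (s : ℕ) (i : Fin m) (v : Fin m × Fin b →₀ ℕ) (c : ℂ) :
    D0 s i (monomial v c) = ∑ j, if ∑ i', v (i', j) ≤ s then
      monomial (v - Finsupp.single (i, j) 1) (c * ((v (i, j) : ℕ) : ℂ)) else 0 := by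
  simp only [D0, LinearMap.sum_apply, An, op_mono]
  refine Finset.sum_congr rfl fun j _ => ?_
  by_cases h : nj v j ≤ s
  · rw [if_pos h, if_pos (show ∑ i', v (i', j) ≤ s from h), smul_monomial, smul_eq_mul]
  · rw [if_neg h, if_neg (show ¬ ∑ i', v (i', j) ≤ s from h), smul_zero]

/-- coefficients of a linear map with given values on the monomials -/
theorem ind_mono {P : R m b → Prop} (h0 : ∀ v a, P (monomial v a))
    (h1 : ∀ p q, P p → P q → P (p + q)) (p : R m b) : P p :=
  MvPolynomial.induction_on' p h0 h1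

theorem coeff_An (s : ℕ) (i : Fin m) (j : Fin b) (u : Fin m × Fin b →₀ ℕ) (F : R m b) :
    coeff u (An s i j F) = if ∑ a, u (a, j) < s then
      coeff (u + Finsupp.single (i, j) 1) F * ((u (i, j) : ℂ) + 1) else 0 := by
  have hsum : ∀ v : Fin m × Fin b →₀ ℕ, ∑ a, (v + Finsupp.single (i, j) 1 : Fin m × Fin b →₀ ℕ) (a, j) =
      ∑ a, v (a, j) + 1 := by
    intro v
    simp only [Finsupp.add_apply, Finset.sum_add_distrib]
    congr 1
    rw [Finset.sum_eq_single i]
    · simp
    · intro k _ hk
      rw [Finsupp.single_apply, if_neg]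
      intro h
      exact hk (Prod.ext_iff.1 h).1.symm
    · intro h
      exact absurd (Finset.mem_univ i) h
  refine ind_mono (P := fun F => coeff u (An s i j F) = if ∑ a, u (a, j) < s then
      coeff (u + Finsupp.single (i, j) 1) F * ((u (i, j) : ℂ) + 1) else 0) ?_ ?_ F
  · intro v a
    have e : An s i j (monomial v a) = if nj v j ≤ s then
        monomial (v - Finsupp.single (i, j) 1) (a * ((v (i, j) : ℕ) : ℂ)) else 0 := by
      simp only [An, op_mono]
      split_ifs
      · rw [smul_monomial, smul_eq_mul]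
      · rw [smul_zero]
    rw [e, coeff_monomial]
    by_cases hv : v = u + Finsupp.single (i, j) 1
    · subst hv
      rw [if_pos rfl]
      have h1 : nj (u + Finsupp.single (i, j) 1) j = ∑ a, u (a, j) + 1 := hsum u
      have h2 : (u + Finsupp.single (i, j) 1 : Fin m × Fin b →₀ ℕ) (i, j) = u (i, j) + 1 := by
        rw [Finsupp.add_apply, Finsupp.single_apply, if_pos rfl]
      rw [h1, h2, add_tsub_cancel_right]
      by_cases hs : ∑ a, u (a, j) < s
      · rw [if_pos (by omega), if_pos hs, coeff_monomial, if_pos rfl]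
        push_cast
        ring
      · rw [if_neg (by omega), if_neg hs, coeff_zero]
    · rw [if_neg hv, zero_mul, ite_self]
      split_ifs with hs
      · rw [coeff_monomial]
        split_ifs with h3
        · rcases Nat.eq_zero_or_pos (v (i, j)) with h0 | h0
          · rw [h0]; simp
          · exfalso
            apply hv
            rw [← h3]
            exact (tsub_add_cancel_of_le (Finsupp.single_le_iff.2 h0)).symm
        · rfl
      · rw [coeff_zero]
  · intro p q hp hq
    rw [map_add, coeff_add, hp, hq, coeff_add]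
    split_ifs
    · ring
    · ring

theorem coeff_D0 (s : ℕ) (i : Fin m) (u : Fin m × Fin b →₀ ℕ) (F : R m b) :
    coeff u (D0 s i F) = ∑ j, if ∑ a, u (a, j) < s then
      coeff (u + Finsupp.single (i, j) 1) F * ((u (i, j) : ℂ) + 1) else 0 := by
  rw [D0, LinearMap.sum_apply, coeff_sum]
  exact Finset.sum_congr rfl fun j _ => coeff_An s i j u F

theorem coeff_Cr (s : ℕ) (i : Fin m) (j : Fin b) (u : Fin m × Fin b →₀ ℕ) (F : R m b) :
    coeff u (Cr s i j F) = if 1 ≤ u (i, j) then
      coeff (u - Finsupp.single (i, j) 1) F * ((s + 1 - ∑ a, u (a, j) : ℕ) : ℂ) else 0 := by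
  have hsum : ∀ v : Fin m × Fin b →₀ ℕ, ∑ a, (v + Finsupp.single (i, j) 1 : Fin m × Fin b →₀ ℕ) (a, j) =
      ∑ a, v (a, j) + 1 := by
    intro v
    simp only [Finsupp.add_apply, Finset.sum_add_distrib]
    congr 1
    rw [Finset.sum_eq_single i]
    · simp
    · intro k _ hk
      rw [Finsupp.single_apply, if_neg]
      intro h
      exact hk (Prod.ext_iff.1 h).1.symm
    · intro h
      exact absurd (Finset.mem_univ i) h
  refine ind_mono (P := fun F => coeff u (Cr s i j F) = if 1 ≤ u (i, j) then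
      coeff (u - Finsupp.single (i, j) 1) F * ((s + 1 - ∑ a, u (a, j) : ℕ) : ℂ) else 0) ?_ ?_ F
  · intro v a
    have e : Cr s i j (monomial v a) = monomial (v + Finsupp.single (i, j) 1)
        (a * ((s - nj v j : ℕ) : ℂ)) := by
      simp only [Cr, op_mono, smul_monomial, smul_eq_mul]
    rw [e, coeff_monomial, coeff_monomial]
    by_cases hu : 1 ≤ u (i, j)
    · rw [if_pos hu]
      have hu' : u - Finsupp.single (i, j) 1 + Finsupp.single (i, j) 1 = u :=
        tsub_add_cancel_of_le (Finsupp.single_le_iff.2 hu)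
      by_cases hv : v = u - Finsupp.single (i, j) 1
      · rw [if_pos hv, if_pos (by rw [hv, hu'])]
        have h1 := hsum v
        rw [hv, hu', ← hv] at h1
        rw [show s + 1 - ∑ a, u (a, j) = s - nj v j by unfold nj; omega]
      · rw [if_neg hv, if_neg, zero_mul]
        intro h
        apply hv
        rw [← h, add_tsub_cancel_right]
    · rw [if_neg hu, if_neg]
      intro h
      apply hu
      rw [← h, Finsupp.add_apply, Finsupp.single_apply, if_pos rfl]
      omega
  · intro p q hp hq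
    rw [map_add, coeff_add, hp, hq, coeff_add]
    split_ifs
    · ring
    · ring

theorem coeff_Fo (s : ℕ) (i : Fin m) (u : Fin m × Fin b →₀ ℕ) (F : R m b) :
    coeff u (Fo s i F) = ∑ j, if 1 ≤ u (i, j) then
      coeff (u - Finsupp.single (i, j) 1) F * ((s + 1 - ∑ a, u (a, j) : ℕ) : ℂ) else 0 := by
  rw [Fo, LinearMap.sum_apply, coeff_sum]
  exact Finset.sum_congr rfl fun j _ => coeff_Cr s i j u F

end

end Vale.Agent.P181.DU.H235
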