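import Vale.Agent.P181.DU.H235.Form

set_option autoImplicit false

/-!
# P181, DU: positivity
-/

open MvPolynomial Finset

open scoped Nat

namespace Vale.Agent.P181.DU.H235

variable {m b : ℕ}

/-- `∑ conj(g_ik) g_ki ≤ ∑ |g_ik|²` -/
theorem swap_le {w : (Fin m × Fin b →₀ ℕ) → ℝ} (hw : ∀ u, 0 ≤ w u) (G : Fin m → Fin m → R m b) :
    ∑ k, ∑ i, Qf w (G k i) (G i k) ≤ ∑ k, ∑ i, Qf w (G k i) (G k i) := by
  have h : ∀ k i, 0 ≤ Qf w (G k i) (G k i) + Qf w (G i k) (G i k) - 2 * Qf w (G k i) (G i k) := by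
    intro k i
    have h1 := Qf_self_nonneg hw (G k i - G i k)
    rw [Qf_sub_right, Qf_sub_left, Qf_sub_left, Qf_symm w (G i k) (G k i)] at h1
    linarith
  have h2 : 0 ≤ ∑ k, ∑ i, (Qf w (G k i) (G k i) + Qf w (G i k) (G i k) -
      2 * Qf w (G k i) (G i k)) :=
    Finset.sum_nonneg fun k _ => Finset.sum_nonneg fun i _ => h k i
  simp only [Finset.sum_sub_distrib, Finset.sum_add_distrib, ← Finset.mul_sum] at h2
  have h3 : ∑ k, ∑ i, Qf w (G i k) (G i k) = ∑ k, ∑ i, Qf w (G k i) (G k i) := Finset.sum_comm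
  rw [h3] at h2
  linarith

theorem coeff_Ad (s : ℕ) (j : Fin b) (u : Fin m × Fin b →₀ ℕ) (p : R m b) :
    coeff u (Ad s j p) = coeff u p * ((s - nj u j : ℕ) : ℂ) := by
  refine ind_mono (P := fun p => coeff u (Ad s j p) = coeff u p * ((s - nj u j : ℕ) : ℂ))
    (fun v a => ?_) (fun p q hp hq => ?_) p
  · rw [Ad_mono, coeff_monomial, coeff_monomial]
    by_cases h : v = u
    · rw [if_pos h, if_pos h, h]
    · rw [if_neg h, if_neg h, zero_mul]
  · rw [map_add, coeff_add, coeff_add, hp, hq, add_mul]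

theorem coeff_Ee (s : ℕ) (i : Fin m) (j : Fin b) (u : Fin m × Fin b →₀ ℕ) (p : R m b) :
    coeff u (Ee s i i j p) = coeff u p * (if nj u j ≤ s then ((u (i, j) : ℕ) : ℂ) else 0) := by
  refine ind_mono (P := fun p => coeff u (Ee s i i j p) =
    coeff u p * (if nj u j ≤ s then ((u (i, j) : ℕ) : ℂ) else 0)) (fun v a => ?_)
    (fun p q hp hq => ?_) p
  · rw [Ee_mono]
    rcases Nat.eq_zero_or_pos (v (i, j)) with h0 | h0
    · rw [h0, Nat.cast_zero, mul_zero, map_zero, ite_self, coeff_zero, coeff_monomial]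
      by_cases h : v = u
      · rw [← h, h0, Nat.cast_zero, ite_self, mul_zero]
      · rw [if_neg h, zero_mul]
    · rw [sub_add_single (show 1 ≤ v (i, j) from h0)]
      by_cases h : v = u
      · subst h
        split_ifs
        · rw [coeff_monomial, if_pos rfl, coeff_monomial, if_pos rfl]
        · rw [coeff_zero, mul_zero]
      · rw [coeff_monomial, if_neg h, zero_mul]
        split_ifs
        · rw [coeff_monomial, if_neg h]
        · rw [coeff_zero]
  · rw [map_add, coeff_add, coeff_add, hp, hq, add_mul]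

/-- the diagonal part is bigger than the polarisation part -/
theorem diag_le (s : ℕ) (p : R m b) (hs : ∀ v, coeff v p ≠ 0 → 2 * ∑ x, v x < b * s) :
    Qf (cw s) p p ≤ ∑ j, Qf (cw s) p (Ad s j p) - ∑ i, ∑ j, Qf (cw s) p (Ee s i i j p) := by
  simp only [Qf]
  rw [Finset.sum_comm (s := Finset.univ) (t := p.support)]
  have h1 : ∑ i, ∑ j, ∑ u ∈ p.support,
      cw s u * ((starRingEnd ℂ) (coeff u p) * coeff u (Ee s i i j p)).re =
      ∑ u ∈ p.support, ∑ i, ∑ j,
        cw s u * ((starRingEnd ℂ) (coeff u p) * coeff u (Ee s i i j p)).re := by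
    rw [Finset.sum_comm' (s := p.support) (t := fun _ => Finset.univ) (t' := Finset.univ)
      (s' := fun _ => p.support) (by simp)]
    refine Finset.sum_congr rfl fun i _ => ?_
    rw [Finset.sum_comm]
  rw [h1, ← Finset.sum_sub_distrib]
  refine Finset.sum_le_sum fun u hu => ?_
  have h2 : ∀ j, cw s u * ((starRingEnd ℂ) (coeff u p) * coeff u (Ad s j p)).re =
      cw s u * Complex.normSq (coeff u p) * ((s - nj u j : ℕ) : ℝ) := by
    intro j
    rw [coeff_Ad, ← mul_assoc, ← Complex.ofReal_natCast, Complex.re_mul_ofReal, re_self]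
    ring
  have h3 : ∀ i j, cw s u * ((starRingEnd ℂ) (coeff u p) * coeff u (Ee s i i j p)).re =
      cw s u * Complex.normSq (coeff u p) * (if nj u j ≤ s then ((u (i, j) : ℕ) : ℝ) else 0) := by
    intro i j
    rw [coeff_Ee, ← mul_assoc]
    split_ifs
    · rw [← Complex.ofReal_natCast, Complex.re_mul_ofReal, re_self]
      ring
    · simp
  simp only [h2, h3, ← Finset.mul_sum]
  rw [re_self, ← mul_sub]
  have h4 : (1 : ℝ) ≤ ∑ j, ((s - nj u j : ℕ) : ℝ) -
      ∑ i, ∑ j, (if nj u j ≤ s then ((u (i, j) : ℕ) : ℝ) else 0) := by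
    rw [Finset.sum_comm (s := (Finset.univ : Finset (Fin m))), ← Finset.sum_sub_distrib]
    have h5 : ∀ j, (s : ℝ) - 2 * (nj u j : ℝ) ≤ ((s - nj u j : ℕ) : ℝ) -
        ∑ i, (if nj u j ≤ s then ((u (i, j) : ℕ) : ℝ) else 0) := by
      intro j
      split_ifs with h
      · rw [Nat.cast_sub h, nj]
        push_cast
        linarith
      · rw [Nat.sub_eq_zero_of_le (not_le.1 h).le, Finset.sum_const_zero]
        have : (s : ℝ) ≤ (nj u j : ℝ) := by exact_mod_cast (not_le.1 h).le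
        have h0 : (0 : ℝ) ≤ (nj u j : ℝ) := Nat.cast_nonneg _
        push_cast
        linarith
    refine le_trans ?_ (Finset.sum_le_sum fun j _ => h5 j)
    rw [Finset.sum_sub_distrib, Finset.sum_const, ← Finset.mul_sum, Finset.card_univ,
      Fintype.card_fin, nsmul_eq_mul]
    have h6 := hs u (mem_support_iff.1 hu)
    have h7 : ∑ x, u x = ∑ j, nj u j := by
      rw [Fintype.sum_prod_type, Finset.sum_comm]
      rfl
    rw [h7] at h6
    have h8 : 2 * ∑ j, nj u j + 1 ≤ b * s := h6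
    have h9 : (2 : ℝ) * ∑ j, (nj u j : ℝ) + 1 ≤ b * s := by exact_mod_cast h8
    linarith
  have h10 : 0 ≤ cw s u * Complex.normSq (coeff u p) :=
    mul_nonneg (cw_pos s u).le (Complex.normSq_nonneg _)
  nlinarith

/-- **positivity** -/
theorem posH (s : ℕ) (H : Fin m → R m b) (hF : ∑ i, Fo s i (H i) = 0)
    (hD : ∀ i k, D0 s k (H i) = D0 s i (H k))
    (hs : ∀ i, ∀ v, coeff v (H i) ≠ 0 → 2 * ∑ x, v x < b * s) : ∀ i, H i = 0 := by
  have h0 : ∑ k, ∑ i, Qf (cw s) (Fo s k (H k)) (Fo s i (H i)) = 0 := by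
    have h : Qf (cw s) (∑ k, Fo s k (H k)) (∑ i, Fo s i (H i)) = 0 := by
      rw [hF, Qf_zero_right]
    rw [Qf_sum_left] at h
    simp only [Qf_sum_right] at h
    exact h
  have h1 : ∀ k i, Qf (cw s) (Fo s k (H k)) (Fo s i (H i)) =
      Qf (cw s) (D0 s k (H i)) (D0 s k (H i)) +
        (if i = k then ∑ j, Qf (cw s) (H k) (Ad s j (H i)) else 0) -
        ∑ j, Qf (cj s j) (pderiv (i, j) (H k)) (pderiv (k, j) (H i)) := by
    intro k i
    rw [adj_Fo]
    have h2 := congrArg (Qf (cw s) (H k)) (comm s i k (H i))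
    rw [Qf_add_right, Qf_add_right, Qf_sum_right, adj_Fo', hD k i] at h2
    simp only [adj_Ee] at h2
    have h3 : Qf (cw s) (H k) (if i = k then ∑ j, Ad s j (H i) else 0) =
        if i = k then ∑ j, Qf (cw s) (H k) (Ad s j (H i)) else 0 := by
      split_ifs
      · rw [Qf_sum_right]
      · rw [Qf_zero_right]
    rw [h3] at h2
    linarith
  simp only [h1] at h0
  simp only [Finset.sum_sub_distrib, Finset.sum_add_distrib] at h0
  have h4 : ∑ k, ∑ i, (if i = k then ∑ j, Qf (cw s) (H k) (Ad s j (H i)) else 0) =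
      ∑ k, ∑ j, Qf (cw s) (H k) (Ad s j (H k)) := by
    refine Finset.sum_congr rfl fun k _ => ?_
    rw [Finset.sum_ite_eq' Finset.univ k, if_pos (Finset.mem_univ k)]
  have h5 : ∑ k, ∑ i, ∑ j, Qf (cj s j) (pderiv (i, j) (H k)) (pderiv (k, j) (H i)) ≤
      ∑ k, ∑ i, ∑ j, Qf (cw s) (H k) (Ee s i i j (H k)) := by
    have e1 : ∀ f : Fin m → Fin m → Fin b → ℝ, ∑ k, ∑ i, ∑ j, f k i j =
        ∑ j, ∑ k, ∑ i, f k i j := by
      intro f
      rw [Finset.sum_comm (s := (Finset.univ : Finset (Fin b)))]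
      refine Finset.sum_congr rfl fun k _ => ?_
      rw [Finset.sum_comm]
    rw [e1, e1]
    refine Finset.sum_le_sum fun j _ => ?_
    simp only [adj_Ee]
    exact swap_le (cj_nonneg s j) fun k i => pderiv (i, j) (H k)
  have h6 : 0 ≤ ∑ k, ∑ i, Qf (cw s) (D0 s k (H i)) (D0 s k (H i)) :=
    Finset.sum_nonneg fun k _ => Finset.sum_nonneg fun i _ =>
      Qf_self_nonneg (fun u => (cw_pos s u).le) _
  have h7 : ∑ k, Qf (cw s) (H k) (H k) ≤ 0 := by
    have h8 : ∑ k, Qf (cw s) (H k) (H k) ≤ ∑ k, (∑ j, Qf (cw s) (H k) (Ad s j (H k)) -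
        ∑ i, ∑ j, Qf (cw s) (H k) (Ee s i i j (H k))) :=
      Finset.sum_le_sum fun k _ => diag_le s (H k) (hs k)
    rw [Finset.sum_sub_distrib] at h8
    linarith
  intro k
  refine Qf_self_eq (cw_pos s) ?_
  have h9 : ∀ i ∈ Finset.univ, 0 ≤ Qf (cw s) (H i) (H i) := fun i _ =>
    Qf_self_nonneg (fun u => (cw_pos s u).le) _
  exact (Finset.single_le_sum h9 (Finset.mem_univ k)).trans h7

/-- (a): the range of `f` meets the common kernel of the `D0` trivially -/
theorem range_inf_ker (s : ℕ) (p : R m b) (g : Fin m → R m b) (hp : p = ∑ i, Fo s i (g i))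
    (hk : ∀ i, D0 s i p = 0) : p = 0 := by
  refine Qf_self_eq (cw_pos s) (le_of_eq ?_)
  conv_lhs => arg 2; rw [hp]
  rw [Qf_sum_left]
  refine Finset.sum_eq_zero fun i _ => ?_
  rw [adj_Fo, hk i, Qf_zero_right]

end Vale.Agent.P181.DU.H235
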