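import Vale.Agent.P181.DU.H235.Main
import Vale.Agent.P181.DU.H248.C

set_option autoImplicit false

/-!
# P181, DU: stability of the symmetric highest weight polynomials
-/

open MvPolynomial Finset

namespace Vale.Agent.P181.DU.H235

open Vale.Agent.P181.T4 (HW mem_HW rowOp rowOp_apply)
open Vale.Agent.P181.DU.H248 (MD mem_MD)

variable {m b : ℕ}

/-- one column of the row operator -/
noncomputable def Ro (k l : Fin m) (j : Fin b) : R m b →ₗ[ℂ] R m b :=
  op fun v => monomial (v - Finsupp.single (l, j) 1 + Finsupp.single (k, j) 1)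
    ((v (l, j) : ℕ) : ℂ)

theorem Ro_mono (k l : Fin m) (j : Fin b) (v : Fin m × Fin b →₀ ℕ) (c : ℂ) :
    Ro k l j (monomial v c) = monomial (v - Finsupp.single (l, j) 1 + Finsupp.single (k, j) 1)
      (c * ((v (l, j) : ℕ) : ℂ)) := by
  simp only [Ro, op_mono, smul_monomial, smul_eq_mul]

theorem rowOp_eq (k l : Fin m) (p : R m b) : rowOp k l p = ∑ j, Ro k l j p := by
  rw [rowOp_apply]
  refine Finset.sum_congr rfl fun j _ => ?_
  refine ind_mono (P := fun p => X (k, j) * pderiv (l, j) p = Ro k l j p) (fun v c => ?_)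
    (fun p q hp hq => ?_) p
  · rw [pderiv_monomial, Ro_mono, X, monomial_mul, one_mul, add_comm]
  · simp only [map_add, mul_add, hp, hq]

theorem Ro_Cr_ne (s : ℕ) (k l i : Fin m) {j j' : Fin b} (h : j ≠ j') (p : R m b) :
    Ro k l j' (Cr s i j p) = Cr s i j (Ro k l j' p) := by
  refine ind_mono (P := fun p => Ro k l j' (Cr s i j p) = Cr s i j (Ro k l j' p)) (fun v c => ?_)
    (fun p q hp hq => ?_) p
  · have hne : ((i, j) : Fin m × Fin b) ≠ (l, j') := fun h' => h (Prod.ext_iff.1 h').2
    have e2 : (v + Finsupp.single (i, j) 1 : Fin m × Fin b →₀ ℕ) (l, j') = v (l, j') := by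
      rw [Finsupp.add_apply, Finsupp.single_apply, if_neg hne, add_zero]
    rw [Cr_mono, Ro_mono, Ro_mono, Cr_mono, e2]
    rcases Nat.eq_zero_or_pos (v (l, j')) with h0 | h0
    · rw [h0]; simp
    · have e3 := nj_sub (j' := j) (show 1 ≤ v (l, j') from h0)
      rw [if_neg (Ne.symm h), add_zero] at e3
      have e4 : nj (v - Finsupp.single (l, j') 1 + Finsupp.single (k, j') 1) j = nj v j := by
        rw [nj_add, nj_single, if_neg (Ne.symm h), add_zero, e3]
      rw [e4, sub_add_comm' (show 1 ≤ v (l, j') from h0), add_right_comm]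
      congr 1
      ring
  · simp only [map_add, hp, hq]

theorem Ro_Cr_eq (s : ℕ) (k l i : Fin m) (j : Fin b) (p : R m b) :
    Ro k l j (Cr s i j p) = Cr s i j (Ro k l j p) + if l = i then Cr s k j p else 0 := by
  refine ind_mono (P := fun p => Ro k l j (Cr s i j p) =
    Cr s i j (Ro k l j p) + if l = i then Cr s k j p else 0) (fun v c => ?_)
    (fun p q hp hq => ?_) p
  · rw [Cr_mono, Ro_mono, Ro_mono, Cr_mono]
    have hnj : 1 ≤ v (l, j) →
        nj (v - Finsupp.single (l, j) 1 + Finsupp.single (k, j) 1) j = nj v j := by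
      intro h0
      have e3 := nj_sub (j' := j) h0
      rw [if_pos rfl] at e3
      rw [nj_add, nj_single, if_pos rfl, e3]
    by_cases hli : l = i
    · subst hli
      rw [if_pos rfl, Cr_mono]
      have e2 : (v + Finsupp.single (l, j) 1 : Fin m × Fin b →₀ ℕ) (l, j) = v (l, j) + 1 := by
        rw [Finsupp.add_apply, Finsupp.single_apply, if_pos rfl]
      rw [e2, add_single_sub]
      rcases Nat.eq_zero_or_pos (v (l, j)) with h0 | h0
      · rw [h0]; simp
      · rw [hnj h0, add_right_comm, sub_add_single (show 1 ≤ v (l, j) from h0), ← map_add]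
        congr 1
        push_cast
        ring
    · rw [if_neg hli, add_zero]
      have hne : ((i, j) : Fin m × Fin b) ≠ (l, j) := fun h' => hli (Prod.ext_iff.1 h').1.symm
      have e2 : (v + Finsupp.single (i, j) 1 : Fin m × Fin b →₀ ℕ) (l, j) = v (l, j) := by
        rw [Finsupp.add_apply, Finsupp.single_apply, if_neg hne, add_zero]
      rw [e2]
      rcases Nat.eq_zero_or_pos (v (l, j)) with h0 | h0
      · rw [h0]; simp
      · rw [hnj h0, sub_add_comm' (show 1 ≤ v (l, j) from h0), add_right_comm]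
        congr 1
        ring
  · simp only [map_add, hp, hq]
    split_ifs
    · abel
    · abel

theorem rowOp_Fo (s : ℕ) (k l i : Fin m) (p : R m b) :
    rowOp k l (Fo s i p) = Fo s i (rowOp k l p) + if l = i then Fo s k p else 0 := by
  have hL : rowOp k l (Fo s i p) = ∑ j', ∑ j, Ro k l j' (Cr s i j p) := by
    rw [rowOp_eq]
    simp only [Fo, LinearMap.sum_apply, map_sum]
  have hR : Fo s i (rowOp k l p) = ∑ j', ∑ j, Cr s i j (Ro k l j' p) := by
    rw [rowOp_eq]
    simp only [Fo, LinearMap.sum_apply, map_sum]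
  have h3 : (if l = i then Fo s k p else 0) = ∑ j, if l = i then (Cr s k j p : R m b) else 0 := by
    split_ifs
    · rw [Fo, LinearMap.sum_apply]
    · rw [Finset.sum_const_zero]
  rw [hL, hR, h3, ← Finset.sum_add_distrib]
  refine Finset.sum_congr rfl fun j' _ => ?_
  have h5 : ∑ j, Cr s i j (Ro k l j' p) =
      Cr s i j' (Ro k l j' p) + ∑ j ∈ Finset.univ.erase j', Cr s i j (Ro k l j' p) :=
    (Finset.add_sum_erase Finset.univ (fun j => Cr s i j (Ro k l j' p)) (Finset.mem_univ j')).symm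
  have h6 : ∑ j, Ro k l j' (Cr s i j p) =
      Ro k l j' (Cr s i j' p) + ∑ j ∈ Finset.univ.erase j', Ro k l j' (Cr s i j p) :=
    (Finset.add_sum_erase Finset.univ (fun j => Ro k l j' (Cr s i j p)) (Finset.mem_univ j')).symm
  have h4 : ∑ j ∈ Finset.univ.erase j', Ro k l j' (Cr s i j p) =
      ∑ j ∈ Finset.univ.erase j', Cr s i j (Ro k l j' p) :=
    Finset.sum_congr rfl fun j hj => Ro_Cr_ne s k l i (Finset.mem_erase.1 hj).1 p
  rw [h5, h6, h4, Ro_Cr_eq, add_right_comm]

theorem dT_rowOp (k l i : Fin m) (p : R m b) :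
    dT i (rowOp k l p) = rowOp k l (dT i p) + if i = k then dT l p else 0 := by
  rw [rowOp_apply, rowOp_apply, dT_apply, dT_apply, dT_apply]
  have h1 : ∀ j' j : Fin b, pderiv (i, j') (X (k, j) * pderiv (l, j) p) =
      X (k, j) * pderiv (l, j) (pderiv (i, j') p) +
        (if i = k ∧ j' = j then pderiv (l, j) p else 0) := by
    intro j' j
    rw [Derivation.leibniz, smul_eq_mul, smul_eq_mul, pderiv_X, pd_comm (i, j') (l, j)]
    congr 1
    by_cases h : i = k ∧ j' = j
    · obtain ⟨rfl, rfl⟩ := h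
      rw [if_pos ⟨rfl, rfl⟩, Pi.single_eq_same, mul_one]
    · rw [if_neg h, Pi.single_eq_of_ne, mul_zero]
      intro h'
      exact h ⟨(Prod.ext_iff.1 h').1.symm, (Prod.ext_iff.1 h').2.symm⟩
  simp only [map_sum, h1, Finset.sum_add_distrib, Finset.mul_sum]
  rw [Finset.sum_comm]
  congr 1
  by_cases h : i = k
  · rw [if_pos h]
    refine Finset.sum_congr rfl fun j' _ => ?_
    rw [Finset.sum_eq_single j']
    · rw [if_pos ⟨h, rfl⟩]
    · intro j _ hj
      rw [if_neg]
      rintro ⟨-, rfl⟩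
      exact hj rfl
    · intro h'
      exact absurd (Finset.mem_univ _) h'
  · rw [if_neg h]
    refine Finset.sum_eq_zero fun j' _ => Finset.sum_eq_zero fun j _ => ?_
    rw [if_neg]
    rintro ⟨h', -⟩
    exact h h'

/-- The operator `L`. -/
noncomputable def LL (s : ℕ) (p : R m b) : R m b := ∑ i, Fo s i (dT i p)

theorem rowOp_LL (s : ℕ) (k l : Fin m) (p : R m b) : rowOp k l (LL s p) = LL s (rowOp k l p) := by
  unfold LL
  rw [map_sum]
  simp only [rowOp_Fo, dT_rowOp, map_add, Finset.sum_add_distrib]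
  congr 1
  have h1 : ∑ i, (if l = i then Fo s k (dT i p) else 0) = Fo s k (dT l p) := by
    rw [Finset.sum_ite_eq, if_pos (Finset.mem_univ l)]
  have h2 : ∑ i, Fo s i (if i = k then dT l p else 0) = Fo s k (dT l p) := by
    rw [Finset.sum_eq_single k]
    · rw [if_pos rfl]
    · intro i _ hi
      rw [if_neg hi, map_zero]
    · intro h
      exact absurd (Finset.mem_univ _) h
  rw [h1, h2]

/-- the column permutation -/
noncomputable def cp (e : Equiv.Perm (Fin b)) : R m b →ₐ[ℂ] R m b :=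
  rename fun p : Fin m × Fin b => (p.1, e p.2)

/-- exponents after the permutation -/
noncomputable def pv (e : Equiv.Perm (Fin b)) (v : Fin m × Fin b →₀ ℕ) : Fin m × Fin b →₀ ℕ :=
  Finsupp.mapDomain (fun p : Fin m × Fin b => (p.1, e p.2)) v

theorem cp_mono (e : Equiv.Perm (Fin b)) (v : Fin m × Fin b →₀ ℕ) (c : ℂ) :
    cp e (monomial v c : R m b) = monomial (pv e v) c := by
  rw [cp, rename_monomial, pv]

theorem pv_inj (e : Equiv.Perm (Fin b)) :
    Function.Injective (fun p : Fin m × Fin b => (p.1, e p.2)) := by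
  intro p q h
  exact Prod.ext (Prod.ext_iff.1 h).1 (e.injective (Prod.ext_iff.1 h).2)

theorem pv_apply (e : Equiv.Perm (Fin b)) (v : Fin m × Fin b →₀ ℕ) (i : Fin m) (j : Fin b) :
    pv e v (i, e j) = v (i, j) :=
  Finsupp.mapDomain_apply (pv_inj e) v (i, j)

theorem pv_add (e : Equiv.Perm (Fin b)) (v w : Fin m × Fin b →₀ ℕ) :
    pv e (v + w) = pv e v + pv e w :=
  Finsupp.mapDomain_add

theorem pv_single (e : Equiv.Perm (Fin b)) (i : Fin m) (j : Fin b) :
    pv e (Finsupp.single (i, j) 1) = Finsupp.single (i, e j) 1 :=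
  Finsupp.mapDomain_single

theorem nj_pv (e : Equiv.Perm (Fin b)) (v : Fin m × Fin b →₀ ℕ) (j : Fin b) :
    nj (pv e v) (e j) = nj v j := by
  unfold nj
  exact Finset.sum_congr rfl fun i _ => pv_apply e v i j

theorem cp_Cr (s : ℕ) (i : Fin m) (j : Fin b) (e : Equiv.Perm (Fin b)) (p : R m b) :
    cp e (Cr s i j p) = Cr s i (e j) (cp e p) := by
  refine ind_mono (P := fun p => cp e (Cr s i j p) = Cr s i (e j) (cp e p)) (fun v c => ?_)
    (fun p q hp hq => ?_) p
  · rw [Cr_mono, cp_mono, cp_mono, Cr_mono, nj_pv, pv_add, pv_single]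
  · simp only [map_add, hp, hq]

theorem cp_pd (i : Fin m) (j : Fin b) (e : Equiv.Perm (Fin b)) (p : R m b) :
    cp e (pderiv (i, j) p) = pderiv (i, e j) (cp e p) := by
  rw [cp]
  have h := pderiv_rename (pv_inj (m := m) e) (i, j) p
  rw [← h]

theorem cp_LL (s : ℕ) (e : Equiv.Perm (Fin b)) (p : R m b) : cp e (LL s p) = LL s (cp e p) := by
  unfold LL
  rw [map_sum]
  refine Finset.sum_congr rfl fun i _ => ?_
  have h1 : cp e (dT i p) = dT i (cp e p) := by
    rw [dT_apply, dT_apply, map_sum]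
    simp only [cp_pd]
    exact Equiv.sum_comp e fun j => pderiv (i, j) (cp e p)
  rw [← h1, Fo, LinearMap.sum_apply, LinearMap.sum_apply, map_sum]
  simp only [cp_Cr]
  exact Equiv.sum_comp e fun j => Cr s i j (cp e (dT i p))

/-- where the coefficients of `L p` come from -/
theorem coeff_LL {s : ℕ} {p : R m b} {u : Fin m × Fin b →₀ ℕ} (h : coeff u (LL s p) ≠ 0) :
    ∃ (i : Fin m) (j j' : Fin b), 1 ≤ u (i, j) ∧ nj u j ≤ s ∧
      coeff (u - Finsupp.single (i, j) 1 + Finsupp.single (i, j') 1) p ≠ 0 := by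
  unfold LL at h
  rw [coeff_sum] at h
  obtain ⟨i, -, hi⟩ := Finset.exists_ne_zero_of_sum_ne_zero h
  rw [coeff_Fo] at hi
  obtain ⟨j, -, hj⟩ := Finset.exists_ne_zero_of_sum_ne_zero hi
  by_cases h1 : 1 ≤ u (i, j)
  · rw [if_pos h1] at hj
    have h2 := left_ne_zero_of_mul hj
    have h3 := right_ne_zero_of_mul hj
    rw [dT_apply, coeff_sum] at h2
    obtain ⟨j', -, hj'⟩ := Finset.exists_ne_zero_of_sum_ne_zero h2
    rw [coeff_pd] at hj'
    refine ⟨i, j, j', h1, ?_, left_ne_zero_of_mul hj'⟩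
    have h4 : s + 1 - ∑ a, u (a, j) ≠ 0 := fun h5 => h3 (by rw [h5, Nat.cast_zero])
    unfold nj
    omega
  · rw [if_neg h1] at hj
    exact absurd rfl hj

/-- **[U3m]** -/
theorem stab (m b a s : ℕ) (mu : Fin m → ℕ) (hs : s ≤ a) (p : R m b) (hp : p ∈ MD m b a mu) :
    LL s p ∈ MD m b a mu := by
  obtain ⟨hp1, hp2, hp3⟩ := mem_MD.1 hp
  refine mem_MD.2 ⟨mem_HW.2 ⟨fun u hu k => ?_, fun k l hkl => ?_⟩, fun e => ?_, fun u hu j => ?_⟩
  · obtain ⟨i, j, j', h1, -, h3⟩ := coeff_LL hu
    have h4 := (mem_HW.1 hp1).1 _ h3 k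
    have h5 : ∀ (j : Fin b), ∑ x, (Finsupp.single (i, j) 1 : Fin m × Fin b →₀ ℕ) (k, x) =
        if i = k then 1 else 0 := by
      intro j
      by_cases h : i = k
      · subst h
        rw [if_pos rfl, Finset.sum_eq_single j]
        · simp
        · intro x _ hx
          rw [Finsupp.single_apply, if_neg]
          intro h'
          exact hx (Prod.ext_iff.1 h').2.symm
        · intro h'
          exact absurd (Finset.mem_univ _) h'
      · rw [if_neg h]
        refine Finset.sum_eq_zero fun x _ => ?_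
        rw [Finsupp.single_apply, if_neg]
        intro h'
        exact h (Prod.ext_iff.1 h').1
    have h6 : ∑ x, u (k, x) = ∑ x, (u - Finsupp.single (i, j) 1 : Fin m × Fin b →₀ ℕ) (k, x) +
        if i = k then 1 else 0 := by
      rw [← h5 j, ← Finset.sum_add_distrib]
      refine Finset.sum_congr rfl fun x _ => ?_
      rw [← Finsupp.add_apply, sub_add_single h1]
    simp only [Finsupp.add_apply, Finset.sum_add_distrib] at h4
    rw [h5] at h4
    rw [h6, h4]
  · rw [rowOp_LL, (mem_HW.1 hp1).2 k l hkl]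
    unfold LL
    simp
  · have h := cp_LL s e p
    have h2 : cp e p = p := hp2 e
    rw [h2] at h
    exact h
  · obtain ⟨i, j0, j', h1, h2, h3⟩ := coeff_LL hu
    by_cases hj : j = j0
    · subst hj
      exact h2.trans hs
    · have h4 := hp3 _ h3 j
      refine le_trans (Finset.sum_le_sum fun x _ => ?_) h4
      rw [Finsupp.add_apply]
      have h5 : (u - Finsupp.single (i, j0) 1 : Fin m × Fin b →₀ ℕ) (x, j) = u (x, j) := by
        rw [Finsupp.tsub_apply, Finsupp.single_apply, if_neg, Nat.sub_zero]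
        intro h'
        exact hj (Prod.ext_iff.1 h').2.symm
      rw [h5]
      exact Nat.le_add_right _ _

end Vale.Agent.P181.DU.H235
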